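import Vale.Agent.P092.H21.C.NrmC
import Vale.Agent.P092.H34.X.TyCL

/-!
P092 (helper21), [CL-EXT-MODEL]: the masses along the two walls for the letters `CL.lt`
(`MassStmt`), all amplifications: helper411's near-wall rows, helper34's row of the types.
-/

set_option linter.all false

open scoped InnerProductSpace ENNReal
open Filter Topology ContinuousLinearMap MeasureTheory TopologicalSpace Module

namespace Vale.Agent.P092.H21.C

open Vale.Agent.P092.H160 Vale.Agent.P092.SR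
open Vale.Agent.P092.H15 (HMG)
open Vale.Agent.P092.H933 (LocK)
open Vale.Agent.P092.CL
open Vale.Agent.P092.H303 (FormGroup hyp Idx)
open Vale.Agent.P092.H714.Cl (Frm)
open Vale.Agent.P092.H370.Po (SGr Sing WI)
open Vale.Agent.P092.H632.T2 (ZC g1 g1' gr gr' nmC gau Std nm_rho scal_zc std_lt)
open Vale.Agent.P092.H411.S2 (tF proper_of stc_ch)

section lt

variable {k : Type} [NontriviallyNormedField k] [ProperSpace k] [MeasurableSpace k] {ι₀ : Type}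
  [Fintype ι₀] [DecidableEq ι₀] {s N : ℕ} {σ : k →+* k} {ε : k} {J₀ : Matrix ι₀ ι₀ k}

theorem card_le (e : Idx (s + 2) ι₀ ≃ Fin (N + 1)) : 2 * (s + 2) ≤ N + 1 := by
  have hcard : Fintype.card (Idx (s + 2) ι₀) = N + 1 := by
    rw [Fintype.card_congr e, Fintype.card_fin]
  have : Fintype.card (Idx (s + 2) ι₀) = (s + 2) + (s + 2) + Fintype.card ι₀ := by
    unfold Idx
    rw [Fintype.card_sum, Fintype.card_sum, Fintype.card_fin]
  omega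

/-- **[CL-MASS] for `CL.lt`, all `t`.** -/
theorem massStmt_lt' (hk : LocK k) (hσn : ∀ x, ‖σ x‖ = ‖x‖)
    (e : Idx (s + 2) ι₀ ≃ Fin (N + 1)) (hF : Frm σ ε (hyp (s + 2) ε J₀))
    (hW : ∀ Y, Sing σ (hyp (s + 2) ε J₀) Y → finrank k Y ≤ s + 2) {w : k} (hw : w ≠ 0)
    (hσw : σ w = w) (hw1 : ‖w‖ < 1) (μ₁ : Measure k) (μ₂ : Measure (V2 σ ε))
    (hc : ∀ C : ℝ, IsCompact {g | (lt hF hw hσw μ₁ μ₂).nm g ≤ C})
    (hm : ∀ p, 1 ≤ p → HMG (FormGroup σ (hyp p ε J₀)))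
    {bp : FormGroup σ (hyp (s + 2) ε J₀) → SGr σ (hyp (s + 2) ε J₀) 1}
    {bm : FormGroup σ (hyp (s + 2) ε J₀) → SGr σ (hyp (s + 2) ε J₀) (s + 2)}
    {E : Type} [Group E] [TopologicalSpace E] [IsTopologicalGroup E] [LocallyCompactSpace E]
    [SecondCountableTopology E] [T2Space E] {ι : FormGroup σ (hyp (s + 2) ε J₀) →* E}
    (h : Adm (lt hF hw hσw μ₁ μ₂) ι) :
    MassStmt (lt hF hw hσw μ₁ μ₂) (gau e (s + 2) (MonoidHom.id _) bp bm) ι := by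
  intro _ _ Γ _ _ _ _ ν _ hν κ κ' ℋ _ _ _ _ _ V R₁ R₂ ξ ξ' hT hh hT' hΓ κ₀ _ Ω pic htv q hq hph hfin
  have hσc : Continuous σ := (AddMonoidHomClass.isometry_of_norm σ hσn).continuous
  have hp := proper_of hc h.coc
  have hL := std_lt hF hw hσw μ₁ μ₂
  have h2r := card_le e
  have c1 := stc_ch hσc hF.inv hF.eps hF.cc h.cι hp hw hw1 hσw (Or.inl rfl)
  have c2 := stc_ch hσc hF.inv hF.eps hF.cc h.cι hp hw hw1 hσw (Or.inr rfl)
  have n1 := nrmT_std hν hT hΓ hT' (bp := bp) (bm := bm) hL hk hσn e (by omega) h2r hF hW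
    (b := ι (lt hF hw hσw μ₁ μ₂).b1) c1.1 c1.2 hph hfin
  have n2 := nrmT_std hν hT hΓ hT' (bp := bp) (bm := bm) hL hk hσn e (by omega) h2r hF hW
    (b := ι (lt hF hw hσw μ₁ μ₂).b2) c2.1 c2.2 hph hfin
  refine ⟨⟨n1.1, n1.2, ?_⟩, ⟨n2.1, n2.2, ?_⟩⟩
  · exact H34.HMK.tyT_frm hν hT hh hT' hΓ pic htv e hk hσc hF.inv hF.eps hF.seps hF.cc h.cι hp hw
      hw1 hσw (Or.inl rfl) (hm _ (by omega)) (fun _ => (hm _ (by omega)).howeMoore) hk hF hσn h2r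
      hW (ph_std hL hph) (fin_std hL e hfin)
  · exact H34.HMK.tyT_frm hν hT hh hT' hΓ pic htv e hk hσc hF.inv hF.eps hF.seps hF.cc h.cι hp hw
      hw1 hσw (Or.inr rfl) (hm _ (by omega)) (fun _ => (hm _ (by omega)).howeMoore) hk hF hσn h2r
      hW (ph_std hL hph) (fin_std hL e hfin)

/-- **[CL-MASS] for `CL.lt`, all `t`.** -/
theorem massStmt_lt [Fact (Continuous σ)] (hk : LocK k) (hσn : ∀ x, ‖σ x‖ = ‖x‖)
    (e : Idx (s + 2) ι₀ ≃ Fin (N + 1)) {hF : Frm σ ε (hyp (s + 2) ε J₀)}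
    (hW : WI σ (hyp (s + 2) ε J₀) (s + 2)) {w : k} {hw : w ≠ 0}
    {hσw : σ w = w} (hw1 : ‖w‖ < 1) {μ₁ : Measure k} {μ₂ : Measure (V2 σ ε)}
    (hG : Geo (lt hF hw hσw μ₁ μ₂)) (hm : ∀ p, 1 ≤ p → HMG (FormGroup σ (hyp p ε J₀)))
    {bp : FormGroup σ (hyp (s + 2) ε J₀) → SGr σ (hyp (s + 2) ε J₀) 1}
    {bm : FormGroup σ (hyp (s + 2) ε J₀) → SGr σ (hyp (s + 2) ε J₀) (s + 2)}
    {E : Type} [Group E] [TopologicalSpace E] [IsTopologicalGroup E] [LocallyCompactSpace E]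
    [SecondCountableTopology E] [T2Space E] {ι : FormGroup σ (hyp (s + 2) ε J₀) →* E}
    (h : Adm (lt hF hw hσw μ₁ μ₂) ι) :
    MassStmt (lt hF hw hσw μ₁ μ₂) (gau e (s + 2) (MonoidHom.id _) bp bm) ι :=
  massStmt_lt' hk hσn e hF hW.2 hw hσw hw1 μ₁ μ₂ hG.nm_cpt hm h

end lt

end Vale.Agent.P092.H21.C
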