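import Vale.Agent.P092.H21.C.RowC
import Vale.Agent.P092.CLT.Stmt
import Vale.Agent.P092.CL.ExG
import Vale.Agent.P092.H958.CLoF
import Vale.Agent.P092.H458.T.Hon
import Vale.Agent.P092.H34.X.PosHH

/-!
P092 (helper21), [CL-EXT-MODEL]: the concrete picture over any admissible source group `E` of a
classical group with letters `L`, all amplifications: `ExHalfT L ι` from the geometry, the gauges,
the overlap, the growth of the root groups, the gap of the two walls and the masses (`MassStmt`).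
-/

set_option linter.all false

open scoped InnerProductSpace ENNReal
open Filter Topology ContinuousLinearMap MeasureTheory TopologicalSpace

namespace Vale.Agent.P092.H21.C

open Vale.Agent.P092.H160 Vale.Agent.P092.SR
open Vale.Agent.P092.RC (PicF adjV3)
open Vale.Agent.P092.SNT (TVEF)
open Vale.Agent.P092.H933 (LeviGap)
open Vale.Agent.P092.CL
open Vale.Agent.P092.CL.T (PBF LegPF HasLegF ExHalfT)
open Vale.Agent.P092.H34.HMK (mX)
open Vale.Agent.P092.H34.Ind (Xset)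
open Vale.Agent.P092.H859.CL (st)
open Vale.Agent.P092.H71.CLO (SprL prp_adm)
open Vale.Agent.P092.H71.P (spr_push)

/-! ### The masses -/

section mass

variable {S P M : Type} [Group S] (T : Gau S P M)
  {E : Type} [Group E] [TopologicalSpace E] [IsTopologicalGroup E] [LocallyCompactSpace E]
  [SecondCountableTopology E] [T2Space E] [MeasurableSpace E] [BorelSpace E]
  {Γ : Subgroup E} [DiscreteTopology Γ] [MeasurableSpace (E ⧸ Γ)] [BorelSpace (E ⧸ Γ)]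
  {ν : Measure (E ⧸ Γ)} [IsProbabilityMeasure ν] [Countable Γ]
  (hν : ∀ g : E, ν.map (fun x => g • x) = ν)
  {ℋ κ : Type} [Fintype κ] [NormedAddCommGroup ℋ] [InnerProductSpace ℂ ℋ]
  [CompleteSpace ℋ] {V R₁ R₂ : Γ →* (ℋ →L[ℂ] ℋ)} {ξ : κ → ℋ} (hT : Tri V R₁ R₂ ξ)

/-- the masses along the wall `b`: near-wall for both systems of gauges, no middle types -/
structure MassT (q : Γ → S) (b : E) : Prop where
  n1 : NrmT hν hT b (fun γ => T.G1 (q γ)) fun γ => T.H1 (q γ)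
  n2 : NrmT hν hT b (fun γ => T.G2 (q γ)) fun γ => T.H2 (q γ)
  ty : ∀ ε : ℝ, 0 < ε → ∃ ρ : ℝ, ∀ᶠ N : ℕ in atTop, mX hν hT (b⁻¹ ^ N)
    (H538.ind fun γ => γ ∈ {γ | ρ < T.H1 (q γ) ∧ ρ < T.H2 (q γ)}) ≤ ε

end mass

/-- **[CL-MASS]** the masses along the two walls, for every lattice of `E`, every lift `q` and every
honest family. -/
def MassStmt {S P M V₁ V₂ : Type} [Group S] [MeasurableSpace V₁] [MeasurableSpace V₂]
    (L : Lt S P M V₁ V₂) (T : Gau S P M) {E : Type} [Group E] [TopologicalSpace E]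
    [IsTopologicalGroup E] [LocallyCompactSpace E] [SecondCountableTopology E] [T2Space E]
    (ι : S →* E) : Prop :=
  ∀ [MeasurableSpace E] [BorelSpace E] {Γ : Subgroup E} [DiscreteTopology Γ] [Countable Γ]
    [MeasurableSpace (E ⧸ Γ)] [BorelSpace (E ⧸ Γ)] {ν : Measure (E ⧸ Γ)}
    [IsProbabilityMeasure ν] (hν : ∀ g : E, ν.map (fun x => g • x) = ν)
    {κ κ' ℋ : Type} [Fintype κ] [Fintype κ'] [NormedAddCommGroup ℋ] [InnerProductSpace ℂ ℋ]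
    [CompleteSpace ℋ] {V R₁ R₂ : Γ →* (ℋ →L[ℂ] ℋ)} {ξ : κ → ℋ} {ξ' : κ' → ℋ}
    (hT : Tri V R₁ R₂ ξ) (_ : Hon R₁ R₂ ξ) (_ : Tri R₁ V R₂ ξ')
    (_ : ∀ g : Γ, g ≠ 1 → Set.Infinite {y : Γ | ∃ h, y = h * g * h⁻¹})
    {κ₀ : Type} [Fintype κ₀] {Ω : κ₀ → Lp ℋ 2 (H85.cdat ν hν).μ}
    (_ : PicF (H34.Ind.pi (H85.cdat ν hν) (V := V) hT.adjV) (H34.Ind.lam (H85.cdat ν hν) R₁)
      (WT (H85.cdat ν hν) R₂) Ω)
    (_ : TVEF (H34.Ind.pi (H85.cdat ν hν) (V := V) hT.adjV) (H34.Ind.lam (H85.cdat ν hν) R₁)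
      (WT (H85.cdat ν hν) R₂) Ω)
    (q : Γ → S), (∀ γ, ι (q γ) = γ) → L.PH q → (∀ C : ℝ, {γ | L.nm (q γ) ≤ C}.Finite) →
    MassT T hν hT q (ι L.b1) ∧ MassT T hν hT q (ι L.b2)

/-! ### A unit vector -/

section unit

variable {E : Type} [Group E] [TopologicalSpace E] [IsTopologicalGroup E] [LocallyCompactSpace E]
  [SecondCountableTopology E] [T2Space E] [MeasurableSpace E] [BorelSpace E]
  {Γ : Subgroup E} [DiscreteTopology Γ] [MeasurableSpace (E ⧸ Γ)] [BorelSpace (E ⧸ Γ)]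
  {ν : Measure (E ⧸ Γ)} [IsProbabilityMeasure ν] [Countable Γ]
  (hν : ∀ g : E, ν.map (fun x => g • x) = ν)
  {ℋ κ : Type} [Fintype κ] [NormedAddCommGroup ℋ] [InnerProductSpace ℂ ℋ]
  [CompleteSpace ℋ] {V R₁ R₂ : Γ →* (ℋ →L[ℂ] ℋ)} {ξ : κ → ℋ} (hT : Tri V R₁ R₂ ξ)

include hT in
theorem exists_v0 : ∃ (c : ℂ) (i : κ),
    ‖(Lp.const 2 (H85.cdat ν hν).μ (c • ξ i) : Lp ℋ 2 (H85.cdat ν hν).μ)‖ = 1 := by
  obtain ⟨i, hi⟩ := hT.ne
  have h0 : 0 < ‖ξ i‖ := norm_pos_iff.2 hi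
  refine ⟨((‖ξ i‖⁻¹ : ℝ) : ℂ), i, ?_⟩
  haveI : IsProbabilityMeasure (H85.cdat ν hν).μ := inferInstanceAs (IsProbabilityMeasure ν)
  rw [norm_const, norm_smul, Complex.norm_real, Real.norm_eq_abs, abs_of_pos (inv_pos.2 h0),
    inv_mul_cancel₀ h0.ne']

end unit

/-! ### The leg -/

section leg

open Vale.Agent.P092.H103 (AF)
open Vale.Agent.P092.H962 (HH PT V3 A3R B3R)

variable {S P M V₁ V₂ : Type} [Group S] [MeasurableSpace V₁] [MeasurableSpace V₂]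
  {L : Lt S P M V₁ V₂} [TopologicalSpace S] [MulAction S P] [TopologicalSpace P] [CompactSpace P]
  [ContinuousConstSMul S P] [MulAction S M] [TopologicalSpace M] [CompactSpace M]
  [ContinuousConstSMul S M] [NormedAddCommGroup V₁] [NormedAddCommGroup V₂]
  [ProperSpace V₁] [ProperSpace V₂] [BorelSpace V₁] [BorelSpace V₂]
  {E : Type} [Group E] [TopologicalSpace E] [IsTopologicalGroup E] [LocallyCompactSpace E]
  [SecondCountableTopology E] [T2Space E] [MeasurableSpace E] [BorelSpace E] {ι : S →* E}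
  {Γ : Subgroup E} [DiscreteTopology Γ] [Countable Γ] [MeasurableSpace (E ⧸ Γ)]
  [BorelSpace (E ⧸ Γ)] {ν : Measure (E ⧸ Γ)} [IsProbabilityMeasure ν]
  (hν : ∀ g : E, ν.map (fun x => g • x) = ν)
  (hΓ : ∀ g : Γ, g ≠ 1 → Set.Infinite {y : Γ | ∃ h, y = h * g * h⁻¹})
  {Λ : Type} [Group Λ] [Countable Λ]
  (hΛ : ∀ s : Λ, s ≠ 1 → Set.Infinite {y : Λ | ∃ h, y = h * s * h⁻¹})
  {I : Type} [Fintype I] {α : Γ → (Ell2 (I × Λ) →L[ℂ] Ell2 (I × Λ))} (hα : AF α)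
  {κ : Type} [Fintype κ] {ξ : κ → HH (PT α α α)}
  (hT : Tri (V3 hα hα hα) (A3R hα hα hα) (B3R hα hα hα) ξ)

/-- spreads over `E` -/
theorem sprE (hG : Geo L) (h : Adm L ι) {W : Type} [MeasurableSpace W] {μ : Measure W} {b : S}
    {n : W → S} (hs : ∃ ρ : ℝ, 0 < ρ ∧ ρ < 1 ∧ H368.SN.Spr μ b n ρ) :
    ∃ ρ : ℝ, 0 < ρ ∧ ρ < 1 ∧ H368.SN.Spr μ (ι b) (fun s => ι (n s)) ρ := by
  obtain ⟨r1, p1, q1, s1⟩ := hs
  exact ⟨r1, p1, q1, spr_push (prp_adm hG h) s1⟩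

include hΓ hΛ in
/-- **The base record of the first leg, all `t`.** -/
theorem pbF_HH (hh : Hon (A3R hα hα hα) (B3R hα hα hα) ξ) (hG : Geo L) (h : Adm L ι)
    (f1 : IsFiniteMeasureOnCompacts L.μ₁) (f2 : IsFiniteMeasureOnCompacts L.μ₂) (hs : SprL L)
    {𝒰 : Ultrafilter ℕ} (h𝒰 : (𝒰 : Filter ℕ) ≤ atTop) (g1 : LeviGap (ι L.b1))
    (g2 : LeviGap (ι L.b2)) {q : Γ → S} (hq : ∀ γ, ι (q γ) = γ) :
    PBF L 𝒰 ι (H34.Ind.pi (H85.cdat ν hν) (V := V3 hα hα hα) (adjV3 hα))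
      (H34.Ind.lam (H85.cdat ν hν) (A3R hα hα hα))
      (Xset (H85.cdat ν hν) (HH (PT α α α)) ∪
        Set.range (H34.Ind.lam (H85.cdat ν hν) (B3R hα hα hα)))
      (H34.AmpE.nrm hν ξ) (st (mT (H85.cdat ν hν) hT)) q := by
  haveI := ncE hG h
  have hph := ph_lift h hq
  have hfin := fin_lift hG h hq
  have ho := H958.CLo.cloF hν hΓ hΛ hα hT hph hG.nm_pos hG.z_nm hG.nm_mul (h.cι.comp hG.u1c)
    (h.cι.comp hG.u2c) (sprE hG h hs.s1) (sprE hG h hs.s2) (sprE hG h hs.s2') g1 g2 hh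
  exact
    { adm := h
      h𝒰 := h𝒰
      pic := H21.P.pic_HH hν hΓ hΛ hα hT
      ms := ho.ms
      uc := ho.uc
      ph := hph
      fin := hfin
      ud := ud_of_fin hG hph hfin
      orb1 := ho.orb1
      orb2 := ho.orb2
      orb2' := ho.orb2'
      size1 := ho.size1
      size2 := ho.size2
      prox1 := prox1_lift hG h hν hq
      prox2 := prox2_lift hG h hν hq
      nis1 := nis_lift1 hG h hν hq
      nis2 := nis_lift2 hG h hν hq }

include hΓ hΛ in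
/-- **The first leg of the model, all `t`.** -/
theorem legF_HH (hh : Hon (A3R hα hα hα) (B3R hα hα hα) ξ) (hG : Geo L) {T : Gau S P M}
    (hT0 : GauOk L T) (hO : OvlStmt L T) (h : Adm L ι)
    (f1 : IsFiniteMeasureOnCompacts L.μ₁) (f2 : IsFiniteMeasureOnCompacts L.μ₂) (hs : SprL L)
    {𝒰 : Ultrafilter ℕ} (h𝒰 : (𝒰 : Filter ℕ) ≤ atTop) (g1 : LeviGap (ι L.b1))
    (g2 : LeviGap (ι L.b2)) (hM : MassStmt L T ι) {q : Γ → S} (hq : ∀ γ, ι (q γ) = γ) :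
    HasLegF L 𝒰 ι (H34.Ind.pi (H85.cdat ν hν) (V := V3 hα hα hα) (adjV3 hα))
      (H34.Ind.lam (H85.cdat ν hν) (A3R hα hα hα))
      (Xset (H85.cdat ν hν) (HH (PT α α α)) ∪
        Set.range (H34.Ind.lam (H85.cdat ν hν) (B3R hα hα hα)))
      (H34.AmpE.nrm hν ξ) (st (mT (H85.cdat ν hν) hT)) q := by
  haveI := ncE hG h
  have hb := pbF_HH hν hΓ hΛ hα hT hh hG h f1 f2 hs h𝒰 g1 g2 hq
  have hx := H962.exists_tri' hα hα hα hΛ
  refine Exists.elim hx fun m' hx => Exists.elim hx fun m'' hx => Exists.elim hx fun ζ h' => ?_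
  have hW := hM hν hT hh h' hΓ (H34.HMK.picE_HH hν hΓ hΛ hα hT) (H34.HMK.tvE_HH hν hα hT) q hq
    hb.ph hb.fin
  obtain ⟨c, i, hv⟩ := exists_v0 hν hT
  have w1 := wal_T hν hT hΓ h' hh hT0 hb.ph (coc_b1 hG h) hW.1.n1 hW.1.n2 hW.1.ty c i
  have w2 := wal_T hν hT hΓ h' hh hT0 hb.ph (coc_b2 hG h) hW.2.n1 hW.2.n2 hW.2.ty c i
  obtain ⟨U11, p11, U12, p12, U21, p21, U22, p22, H⟩ := legQ_of (q := q) hG hT0 hO h h𝒰 hb.pic
    hb.ms hb.ph hb.fin hb.nis1 hb.nis2 (leg_T (H85.cdat ν hν) hT hh hΓ h')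
    (slow_T (H85.cdat ν hν) hT hΓ h' hh (H43.ccont_cdat ν hν))
    (loc2_T (H85.cdat ν hν) hT hΓ h' hh) hv w1 w2
  exact ⟨U11, p11, U12, p12, U21, p21, U22, p22,
    { base := hb
      u11 := H.u11
      u12 := H.u12
      u21 := H.u21
      u22 := H.u22
      s1 := H.s1
      s2 := H.s2
      i11 := H.i11
      i12 := H.i12 }⟩

end leg

/-- **[CL-HALF-T].** -/
theorem exHalfT_of {S P M V₁ V₂ : Type} [Group S] [MeasurableSpace V₁] [MeasurableSpace V₂]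
    {L : Lt S P M V₁ V₂} [TopologicalSpace S] [MulAction S P] [TopologicalSpace P]
    [CompactSpace P] [ContinuousConstSMul S P] [MulAction S M] [TopologicalSpace M]
    [CompactSpace M] [ContinuousConstSMul S M] [NormedAddCommGroup V₁] [NormedAddCommGroup V₂]
    [ProperSpace V₁] [ProperSpace V₂] [BorelSpace V₁] [BorelSpace V₂]
    {E : Type} [Group E] [TopologicalSpace E] [IsTopologicalGroup E] [LocallyCompactSpace E]
    [SecondCountableTopology E] [T2Space E] {ι : S →* E} (hG : Geo L) {T : Gau S P M}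
    (hT : GauOk L T) (hO : OvlStmt L T) (h : Adm L ι)
    (f1 : IsFiniteMeasureOnCompacts L.μ₁) (f2 : IsFiniteMeasureOnCompacts L.μ₂) (hs : SprL L)
    (g1 : LeviGap L.b1) (g2 : LeviGap L.b2) (hM : MassStmt L T ι) : ExHalfT L ι := by
  intro _ _ Γ _ _ _ _ ν _ hν hΓ hicc Λ _ _ hΛ I _ α hα
  haveI := hG.tg
  have hq : ∀ γ : Γ, ι (Function.surjInv h.sur (γ : E)) = γ := fun γ =>
    Function.surjInv_eq h.sur _
  obtain ⟨n, ξ, hT', hh⟩ := H458.Hon.hon hα hα hΛ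
  exact ⟨hyperfilter ℕ, Fin n, inferInstance, H34.AmpE.nrm hν ξ, st (mT (H85.cdat ν hν) hT'),
    fun γ => Function.surjInv h.sur (γ : E),
    legF_HH hν hicc hΛ hα hT' hh hG hT hO h f1 f2 hs Nat.hyperfilter_le_atTop
      (H684.Psp.leviGap_proper ι h.cι h.sur g1) (H684.Psp.leviGap_proper ι h.cι h.sur g2) hM hq,
    inj_lift hG h hq hicc⟩

end Vale.Agent.P092.H21.C
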