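import Vale.Agent.P092.H21.C.ExT
import Vale.Agent.P092.H411.S2.Sys
import Vale.Agent.P092.H632.T2.Gok

/-!
P092 (helper21), [CL-EXT-MODEL]: the near-wall masses of the honest family (all `t`) along every
wall `b` of `E` such that `b`, `b⁻¹` start chains of length `r`, for the standard letters (helper632)
and gauges: the fields `n1`, `n2` of `MassT`.
-/

set_option linter.all false

open scoped InnerProductSpace ENNReal
open Filter Topology ContinuousLinearMap MeasureTheory TopologicalSpace Module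

namespace Vale.Agent.P092.H21.C

open Vale.Agent.P092.H160 Vale.Agent.P092.SR
open Vale.Agent.P092.H933 (LocK)
open Vale.Agent.P092.CL
open Vale.Agent.P092.H303 (FormGroup hyp Idx)
open Vale.Agent.P092.H714.Cl (Frm)
open Vale.Agent.P092.H370.Po (SGr Sing WI)
open Vale.Agent.P092.H632.T2 (ZC g1 g1' gr gr' nmC gau Std nm_rho scal_zc)
open Vale.Agent.P092.H534.Ch (StC)
open Vale.Agent.P092.H411.S2 (nrm_pt nrm_mx)

section std

variable {k : Type} [NontriviallyNormedField k] [ProperSpace k] {n : Type} [Fintype n]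
  [DecidableEq n] {N : ℕ} {σ : k →+* k} {ε : k} {J : Matrix n n k} {r : ℕ} {S V₁ V₂ : Type}
  [Group S] [MeasurableSpace V₁] [MeasurableSpace V₂] [MulAction S (SGr σ J 1)]
  [MulAction S (SGr σ J r)] {L : Lt S (SGr σ J 1) (SGr σ J r) V₁ V₂} {φ : S →* FormGroup σ J}
  {bp : FormGroup σ J → SGr σ J 1} {bm : FormGroup σ J → SGr σ J r}
  {E : Type} [Group E] [TopologicalSpace E] [IsTopologicalGroup E] [LocallyCompactSpace E]
  [SecondCountableTopology E] [T2Space E] [MeasurableSpace E] [BorelSpace E]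
  {Γ : Subgroup E} [DiscreteTopology Γ] [MeasurableSpace (E ⧸ Γ)] [BorelSpace (E ⧸ Γ)]
  {ν : Measure (E ⧸ Γ)} [IsProbabilityMeasure ν] [Countable Γ]
  (hν : ∀ g : E, ν.map (fun x => g • x) = ν)
  {ℋ κ κ' : Type} [Fintype κ] [Fintype κ'] [NormedAddCommGroup ℋ] [InnerProductSpace ℂ ℋ]
  [CompleteSpace ℋ] {V R₁ R₂ : Γ →* (ℋ →L[ℂ] ℋ)} {ξ : κ → ℋ} {ξ' : κ' → ℋ}
  (hT : Tri V R₁ R₂ ξ)
  (hΓ : ∀ g : Γ, g ≠ 1 → Set.Infinite {y : Γ | ∃ h, y = h * g * h⁻¹}) (hT' : Tri R₁ V R₂ ξ')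

omit [ProperSpace k] in
theorem ph_std (hL : Std L φ) {Γ' : Type} [Group Γ'] {q : Γ' → S} (hq : L.PH q) (γ γ' : Γ') :
    ∃ z ∈ ZC σ J, φ (q (γ * γ')) = z * (φ (q γ) * φ (q γ')) := by
  obtain ⟨z, hz, e⟩ := hq γ γ'
  exact ⟨φ z, scal_zc (hL.z z hz), by rw [e, map_mul, map_mul]⟩

omit [ProperSpace k] in
theorem fin_std (hL : Std L φ) (e : n ≃ Fin (N + 1)) {Γ' : Type} {q : Γ' → S}
    (hf : ∀ C : ℝ, {γ | L.nm (q γ) ≤ C}.Finite) (C : ℝ) : {γ | nmC e (φ (q γ)) ≤ C}.Finite := by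
  refine (hf C).subset fun γ hγ => ?_
  have h1 : L.nm (q γ) = nmC e (φ (q γ)) := (hL.nm _).trans (nm_rho e _)
  change L.nm (q γ) ≤ C
  rw [h1]
  exact hγ

include hΓ hT' in
/-- **The near-wall masses, all `t`.** -/
theorem nrmT_std (hL : Std L φ) (hk : LocK k) (hσ : ∀ x, ‖σ x‖ = ‖x‖) (e : n ≃ Fin (N + 1))
    (hr : 2 ≤ r) (h2r : 2 * r ≤ N + 1) (hF : Frm σ ε J) (hW : ∀ Y, Sing σ J Y → finrank k Y ≤ r)
    {b : E} (c : StC r b) (c' : StC r b⁻¹) {q : Γ → S} (hq : L.PH q)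
    (hf : ∀ C : ℝ, {γ | L.nm (q γ) ≤ C}.Finite) :
    NrmT hν hT b (fun γ => (gau e r φ bp bm).G1 (q γ)) (fun γ => (gau e r φ bp bm).H1 (q γ)) ∧
      NrmT hν hT b (fun γ => (gau e r φ bp bm).G2 (q γ))
        fun γ => (gau e r φ bp bm).H2 (q γ) :=
  ⟨fun δ hδ => nrm_pt Γ ν hν e (arepT hT hΓ hT') (covFamT hT hT') (ET_lx hT hT') hr h2r c c' hk hF
    hσ hW (ph_std hL hq) (fin_std hL e hf) hδ,
  fun δ hδ => nrm_mx Γ ν hν e (arepT hT hΓ hT') (covFamT hT hT') (ET_lx hT hT') hr h2r c c' hk hF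
    hσ hW (ph_std hL hq) (fin_std hL e hf) hδ⟩

end std

end Vale.Agent.P092.H21.C
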