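import Vale.Agent.P092.H21.P.RowP
import Vale.Agent.P092.CL.ExDefs
import Vale.Agent.P092.H34.X.PosT

/-!
P092 (helper21), [CL-EXT-MODEL]: the analytic inputs of one leg of the picture `L²(E/Γ; ℋ)` of a
triple with an honest family, `E` an admissible source group of a classical group with letters `L`:
the walls (`CL.Wal`), all `t`.
-/

set_option linter.all false

open scoped InnerProductSpace ENNReal
open Filter Topology ContinuousLinearMap MeasureTheory TopologicalSpace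

namespace Vale.Agent.P092.H21.C

open Vale.Agent.P092.H160 Vale.Agent.P092.H432 Vale.Agent.P092.SR
open Vale.Agent.P092.H132 (massX)
open Vale.Agent.P092.H538 (fst)
open Vale.Agent.P092.H790 (CData Ri baseL)
open Vale.Agent.P092.H859.CL (SysF Esc st BB pw)
open Vale.Agent.P092.H933 (LeviGap)
open Vale.Agent.P092.RC (PicF adjV3)
open Vale.Agent.P092.CL (Lt Geo Adm Gau GauOk Wal)
open Vale.Agent.P092.H34.HMK (mX vec_of_mX)

/-! ### The gauges along `q` -/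

section quasi

variable {S P M V₁ V₂ : Type} [Group S] [MeasurableSpace V₁] [MeasurableSpace V₂]
  {L : Lt S P M V₁ V₂} {T : Gau S P M} {Γ : Type} [Group Γ] {q : Γ → S}

theorem ph3 (hq : L.PH q) (s x u : Γ) : ∃ z ∈ L.Z, q (s * x * u) = z * (q s * q x * q u) := by
  obtain ⟨z, hz, e⟩ := hq (s * x) u
  obtain ⟨z', hz', e'⟩ := hq s x
  exact ⟨z * z', mul_mem hz hz', by rw [e, e']; simp only [mul_assoc]⟩

variable [MulAction S P] [TopologicalSpace P] [MulAction S M] [TopologicalSpace M]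

theorem gap1_q (hg : GauOk L T) (hq : L.PH q) (s u : Γ) :
    ∃ C, ∀ x, |T.G1 (q (s * x * u)) - T.G1 (q x)| ≤ C ∧
      |T.H1 (q (s * x * u)) - T.H1 (q x)| ≤ C := by
  obtain ⟨C, hC⟩ := hg.gap1 (q s) (q u)
  refine ⟨C, fun x => ?_⟩
  obtain ⟨z, hz, e⟩ := ph3 hq s x u
  rw [e]
  exact hC z hz (q x)

theorem gap2_q (hg : GauOk L T) (hq : L.PH q) (s u : Γ) :
    ∃ C, ∀ x, |T.G2 (q (s * x * u)) - T.G2 (q x)| ≤ C ∧
      |T.H2 (q (s * x * u)) - T.H2 (q x)| ≤ C := by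
  obtain ⟨C, hC⟩ := hg.gap2 (q s) (q u)
  refine ⟨C, fun x => ?_⟩
  obtain ⟨z, hz, e⟩ := ph3 hq s x u
  rw [e]
  exact hC z hz (q x)

end quasi

/-! ### The walls -/

section gen

variable {S P M V₁ V₂ : Type} [Group S] [MeasurableSpace V₁] [MeasurableSpace V₂]
  [MulAction S P] [TopologicalSpace P] [MulAction S M] [TopologicalSpace M]
  {L : Lt S P M V₁ V₂} {T : Gau S P M}
  {E : Type} [Group E] [TopologicalSpace E] [IsTopologicalGroup E] [LocallyCompactSpace E]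
  [SecondCountableTopology E] [T2Space E] [MeasurableSpace E] [BorelSpace E]
  {Γ : Subgroup E} [DiscreteTopology Γ] [MeasurableSpace (E ⧸ Γ)] [BorelSpace (E ⧸ Γ)]
  {ν : Measure (E ⧸ Γ)} [IsProbabilityMeasure ν] [Countable Γ]
  (hν : ∀ g : E, ν.map (fun x => g • x) = ν)
  {ℋ κ κ' : Type} [Fintype κ] [Fintype κ'] [NormedAddCommGroup ℋ] [InnerProductSpace ℂ ℋ]
  [CompleteSpace ℋ] {V R₁ R₂ : Γ →* (ℋ →L[ℂ] ℋ)} {ξ : κ → ℋ} {ξ' : κ' → ℋ}
  (hT : Tri V R₁ R₂ ξ)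
  (hΓ : ∀ g : Γ, g ≠ 1 → Set.Infinite {y : Γ | ∃ h, y = h * g * h⁻¹}) (hT' : Tri R₁ V R₂ ξ')
  (hh : Hon R₁ R₂ ξ) {q : Γ → S}

/-- near-wall of the mass along the powers of `b` -/
def NrmT (b : E) (G1 G2 : Γ → ℝ) : Prop :=
  ∀ ε : ℝ, 0 < ε → ∃ r : ℝ, ∀ u ∈ Subgroup.zpowers b,
    massX (fst (baseL (H85.cdat ν hν).μ (Γ × Γ) κ)) (Ri (H85.cdat ν hν) (RT hT)) u
      (H553.ind fun g => g ∈ BB G1 G2 r) ≤ ε

include hΓ hT' hh in
/-- **`CL.Wal` on the picture, all `t`.** -/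
theorem wal_T (hg : GauOk L T) (hq : L.PH q) {b : E}
    (hb : Tendsto (fun n : ℕ => b ^ n) atTop (cocompact E))
    (n1 : NrmT hν hT b (fun γ => T.G1 (q γ)) fun γ => T.H1 (q γ))
    (n2 : NrmT hν hT b (fun γ => T.G2 (q γ)) fun γ => T.H2 (q γ))
    (ty : ∀ ε : ℝ, 0 < ε → ∃ ρ : ℝ, ∀ᶠ N : ℕ in atTop, mX hν hT (b⁻¹ ^ N)
      (H538.ind fun γ => γ ∈ {γ | ρ < T.H1 (q γ) ∧ ρ < T.H2 (q γ)}) ≤ ε) (c : ℂ) (i : κ) :
    Wal (mT (H85.cdat ν hν) hT) (H34.Ind.pi (H85.cdat ν hν) (V := V) hT.adjV)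
      (BdT (H85.cdat ν hν) hT) (msT (H85.cdat ν hν) hT) T q
      (Lp.const 2 (H85.cdat ν hν).μ (c • ξ i)) b where
  s1 := sysF_T (H85.cdat ν hν) hT hΓ hT' hh (gap1_q hg hq) n1
  s2 := sysF_T (H85.cdat ν hν) hT hΓ hT' hh (gap2_q hg hq) n2
  esc := esc_pow_inv_T hν hT hΓ hT' hh hb
  ty := fun ε hε => by
    obtain ⟨R, hR⟩ := vec_of_mX hν hT hh hT' hΓ
      (S := fun ρ => {γ | ρ < T.H1 (q γ) ∧ ρ < T.H2 (q γ)}) ty c i hε
    refine ⟨R, hR.mono fun N hN => ?_⟩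
    rw [← inv_pow]
    exact hN

end gen

end Vale.Agent.P092.H21.C
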